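import Vale.Agent.P043.Three.System
import Vale.Agent.P043.Euclid

namespace Vale.Agent.Results.P043.NoPeriodicDimThree

open MeasureTheory

theorem result (d : ℕ) (hd : 3 ≤ d) :
    (∃ F : Finset (Fin d → ℤ), F.Nonempty ∧
      (∃ A : Set (Fin d → ℤ), ∀ g, ∃! f, f ∈ F ∧ g - f ∈ A) ∧
      ¬∃ A : Set (Fin d → ℤ), (∀ g, ∃! f, f ∈ F ∧ g - f ∈ A) ∧
        ∃ H : AddSubgroup (Fin d → ℤ), H.FiniteIndex ∧ ∀ h ∈ H, ∀ a, a + h ∈ A ↔ a ∈ A) ∧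
    ∃ Ω : Set (Fin d → ℝ), Bornology.IsBounded Ω ∧ MeasurableSet Ω ∧ 0 < volume Ω ∧
      (∃ A : Set (Fin d → ℝ),
        (∀ a ∈ A, ∀ a' ∈ A, a ≠ a' → volume ({x | x - a ∈ Ω} ∩ {x | x - a' ∈ Ω}) = 0) ∧
        volume {x | ∀ a ∈ A, x - a ∉ Ω} = 0) ∧
      ¬∃ A : Set (Fin d → ℝ),
        ((∀ a ∈ A, ∀ a' ∈ A, a ≠ a' → volume ({x | x - a ∈ Ω} ∩ {x | x - a' ∈ Ω}) = 0) ∧
          volume {x | ∀ a ∈ A, x - a ∉ Ω} = 0) ∧
        ∃ v : Fin d → Fin d → ℝ, LinearIndependent ℝ v ∧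
          ∀ i a, a + v i ∈ A ↔ a ∈ A := by
  open Vale.Agent.P043.Three in
  obtain ⟨J, _, system, base, hbase, hsolve, hno⟩ := exists_system bitModuli_separated
  have hdisc := Vale.Agent.P043.Three.periodic_tiling_fails_of_system
    Vale.Agent.P043.Three.intCast_fib_surjective system base 0 hbase hsolve hno d hd
  exact ⟨hdisc, Vale.Agent.P043.Euclid.euclidean_tiling_fails (by omega) hdisc⟩

end Vale.Agent.Results.P043.NoPeriodicDimThree
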